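import Vale.Agent.P338.R2.H651.PI.Act
import Vale.Agent.P338.R3.H527.Search

/-!
# Short slide programs with numbers as indices
-/

namespace Vale.Agent.P338.R3.H651

open Vale.Agent.P338.R2.H651.PI Vale.Agent.P338.R3.H527

/-- The number of a subset, by complements. -/
def num {m : ℕ} (x : Fin m → Bool) : ℕ := Nat.ofBits fun i => !x i

theorem num_lt {m : ℕ} (x : Fin m → Bool) : num x < 2 ^ m := Nat.ofBits_lt_two_pow _

theorem testBit_num {m : ℕ} (x : Fin m → Bool) {t : ℕ} (ht : t < m) :
    (num x).testBit t = !x ⟨t, ht⟩ := Nat.testBit_ofBits_lt _ _ ht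

theorem num_inj {m : ℕ} : Function.Injective (num : (Fin m → Bool) → ℕ) := by
  intro x y h
  funext i
  have h1 := testBit_num x i.2
  have h2 := testBit_num y i.2
  rw [h, h2] at h1
  exact (Bool.not_inj h1).symm

/-- The subset of a number. -/
def den (m u : ℕ) : Fin m → Bool := fun i => !u.testBit i

theorem num_den {m u : ℕ} (hu : u < 2 ^ m) : num (den m u) = u := by
  refine Nat.eq_of_testBit_eq fun t => ?_
  by_cases ht : t < m
  · rw [testBit_num _ ht, den, Bool.not_not]
  · rw [Nat.testBit_eq_false_of_lt (lt_of_lt_of_le (num_lt _) (Nat.pow_le_pow_right two_pos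
      (not_lt.1 ht))), Nat.testBit_eq_false_of_lt (lt_of_lt_of_le hu (Nat.pow_le_pow_right two_pos
      (not_lt.1 ht)))]

/-- A slide with numbers as indices. -/
def conv {m : ℕ} (s : Sl (Fin m → Bool)) : Slide := (num s.i, num s.j, decide (s.c = 1))

theorem sg_conv {G : Type} [AddCommGroup G] (c : ℤˣ) (g : G) :
    sg (decide (c = 1)) g = (c : ℤ) • g := by
  rcases Int.units_eq_one_or c with rfl | rfl
  · simp [sg]
  · have : ¬ ((-1 : ℤˣ) = 1) := by decide
    simp [sg, this]

theorem runS_conv {G : Type} [AddCommGroup G] {m : ℕ} (L : List (Sl (Fin m → Bool))) (x : ℕ → G)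
    (a : Fin m → Bool) : runS (L.map conv).reverse x (num a) = run L (fun b => x (num b)) a := by
  induction L generalizing a with
  | nil => rfl
  | cons s L ih =>
    rw [List.map_cons, List.reverse_cons, runS_snoc, run_cons, sl, Sl.act]
    by_cases h : a = s.i
    · subst h
      rw [conv, Function.update_self, Function.update_self, ih, ih, sg_conv]
    · have h1 : num a ≠ (conv s).1 := fun h2 => h (num_inj h2)
      rw [Function.update_of_ne h1, Function.update_of_ne h, ih]

theorem hPI (ε : ℝ) (hε : 0 < ε) : ∃ m l, Good m l ∧ (l.length : ℝ) ≤ ε * (m * 2 ^ m) := by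
  obtain ⟨m₀, h⟩ := short_programs ε hε
  obtain ⟨m, hm⟩ : ∃ m, m = m₀ + 1 := ⟨_, rfl⟩
  obtain ⟨L, -, hlen, hrun⟩ := h m (by omega)
  refine ⟨m, (L.map conv).reverse, ⟨by omega, ?_, ?_⟩, ?_⟩
  · intro t ht
    rw [List.mem_reverse, List.mem_map] at ht
    obtain ⟨s, -, rfl⟩ := ht
    exact ⟨num_lt _, num_lt _, fun h => s.ne (num_inj h)⟩
  · intro v hv u hu
    rw [← num_den hu, runS_conv, hrun, num_den hu, zeta]
    by_cases hs : sub m v u = true
    · rw [if_pos hs, Finset.sum_eq_single (den m v)]
      · rw [num_den hv, Pi.single_eq_same]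
      · intro b _ hb
        rw [Pi.single_eq_of_ne]
        intro h
        apply hb
        apply num_inj
        rw [h, num_den hv]
      · intro hb
        exfalso
        apply hb
        rw [Finset.mem_filter]
        refine ⟨Finset.mem_univ _, fun i => ?_⟩
        have h1 := sub_iff.1 hs i i.2
        simp only [den]
        cases h2 : v.testBit i
        · simp
        · rw [h1 h2]
    · rw [if_neg hs]
      refine Finset.sum_eq_zero fun b hb => ?_
      rw [Pi.single_eq_of_ne]
      intro h
      apply hs
      rw [Finset.mem_filter] at hb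
      rw [sub_iff]
      intro t ht h1
      have h2 := hb.2 ⟨t, ht⟩
      rw [← h, testBit_num _ ht] at h1
      simp only [Bool.not_eq_true'] at h1
      rw [h1] at h2
      simp only [den] at h2
      cases h3 : u.testBit t
      · rw [h3] at h2
        exact absurd h2 (by decide)
      · rfl
  · rw [List.length_reverse, List.length_map]
    refine hlen.trans ?_
    have h1 : (2 : ℝ) ^ (m - 1) ≤ 2 ^ m := pow_le_pow_right₀ (by norm_num) (Nat.sub_le _ _)
    rw [mul_assoc]
    exact mul_le_mul_of_nonneg_left (mul_le_mul_of_nonneg_left h1 (Nat.cast_nonneg _)) hε.le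

end Vale.Agent.P338.R3.H651
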