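import Vale.Agent.P338.R3.H651.Lev
import Vale.Agent.P338.R3.H527.Word2
import Vale.Agent.P338.R2.H110.Acts
import Vale.Agent.P338.R3.H313.EvActs

/-!
# The sweeps of one zeta step: definitions

One zeta step on the active levels `ls` (or its transpose) is a list of sweeps: every slide of the
program on all full chunks of active levels, and one sweep with chunks of one level for the rest.
The words of a sweep are those of the machine, in the direction of the sweep; the transposed step
consists of the same sweeps in the other direction.
-/

namespace Vale.Agent.P338.R3.H651

open Vale.Agent.P338.R2.H110 Vale.Agent.P338.R3.H527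
open Vale.Agent.P338.R3.H313 (Sw)

/-- The sweep of a slide `(i, j, s)`: in every chunk, the cell `i` += (`s = true`) or -= the
cell `j`. -/
def sw (m : ℕ) (ls : List Bool) (t : Slide) : Sw :=
  if t.2.1 < t.1 then ((true, t.2.2), bw m t.2.1, bw m t.1, ls)
  else ((false, t.2.2), cpl (bw m t.2.1), cpl (bw m t.1), ls)

/-- The sweep for chunks of one level. -/
def sw1 (ls : List Bool) : Sw := ((true, true), [false], [true], ls)

/-- The sweep in the other direction. -/
def rv (x : Sw) : Sw := ((!x.1.1, x.1.2), x.2)

/-- The number of active levels in full chunks. -/
def nfull (m : ℕ) (ls : List Bool) : ℕ := m * (act ls / m)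

/-- The sweeps of one zeta step (`tr = false`: to the cells with more bits `true`; `tr = true`: to
the cells with fewer bits `true`). -/
def sws (tr : Bool) (P : ℕ × List Slide) (ls : List Bool) : List Sw :=
  ((P.2.map (sw P.1 (firstAct (nfull P.1 ls) ls))) ++ [sw1 (restAct (nfull P.1 ls) ls)]).map
    fun x => if tr then rv x else x

end Vale.Agent.P338.R3.H651
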