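import Vale.Agent.P338.R2.H110.Cost

/-!
# Levels: splitting, the zeta transform on the active levels, single bit sweeps
-/

namespace Vale.Agent.P338.R3.H651

open Vale.Agent.P338.R2.H110

/-- The first `n` active levels. -/
def firstAct : ℕ → List Bool → List Bool
  | _, [] => []
  | n, false :: ls => false :: firstAct n ls
  | 0, true :: ls => false :: firstAct 0 ls
  | n + 1, true :: ls => true :: firstAct n ls

/-- The active levels after the first `n` ones. -/
def restAct : ℕ → List Bool → List Bool
  | _, [] => []
  | n, false :: ls => false :: restAct n ls
  | 0, true :: ls => true :: restAct 0 ls
  | n + 1, true :: ls => false :: restAct n ls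

@[simp] theorem length_firstAct (n : ℕ) (ls : List Bool) : (firstAct n ls).length = ls.length := by
  induction ls generalizing n with
  | nil => cases n <;> rfl
  | cons t ls ih => cases t <;> cases n <;> simp [firstAct, ih]

@[simp] theorem length_restAct (n : ℕ) (ls : List Bool) : (restAct n ls).length = ls.length := by
  induction ls generalizing n with
  | nil => cases n <;> rfl
  | cons t ls ih => cases t <;> cases n <;> simp [restAct, ih]

theorem act_firstAct (n : ℕ) (ls : List Bool) : act (firstAct n ls) = min n (act ls) := by
  induction ls generalizing n with
  | nil => cases n <;> simp [firstAct]
  | cons t ls ih =>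
    cases t <;> cases n <;> simp [firstAct, ih]

theorem act_restAct (n : ℕ) (ls : List Bool) : act (restAct n ls) = act ls - n := by
  induction ls generalizing n with
  | nil => cases n <;> simp [restAct]
  | cons t ls ih =>
    cases t <;> cases n <;> simp [restAct, ih]

/-- The condition on the levels is a divisibility. -/
theorem ok_iff {m : ℕ} (ls : List Bool) {r : ℕ} (h1 : 1 ≤ r) (hr : r ≤ m) :
    ok m ls r ↔ m ∣ act ls + (m - r) := by
  induction ls generalizing r with
  | nil =>
    simp only [ok, act_nil, Nat.zero_add]
    constructor
    · rintro rfl
      simp
    · intro h
      rcases Nat.eq_zero_or_pos (m - r) with h0 | h0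
      · omega
      · have := Nat.le_of_dvd h0 h
        omega
  | cons t ls ih =>
    cases t with
    | false =>
      simp only [ok, act_false]
      exact ih h1 hr
    | true =>
      simp only [ok, act_true]
      split_ifs with h
      · subst h
        rw [ih hr le_rfl]
        have e : act ls + 1 + (m - 1) = act ls + (m - m) + m := by omega
        rw [e, Nat.dvd_add_self_right]
      · rw [ih (by omega) (by omega)]
        have e : act ls + 1 + (m - r) = act ls + (m - (r - 1)) := by omega
        rw [e]

theorem ok_one (ls : List Bool) : ok 1 ls 1 := (ok_iff ls le_rfl le_rfl).2 (one_dvd _)

theorem ok_firstAct {m : ℕ} (hm : 0 < m) (k : ℕ) {ls : List Bool} (h : m * k ≤ act ls) :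
    ok m (firstAct (m * k) ls) m := by
  rw [ok_iff _ hm le_rfl, act_firstAct, min_eq_left h, Nat.sub_self, Nat.add_zero]
  exact Nat.dvd_mul_right m k

/-! ### The zeta transform on the active levels -/

section zl

variable {G : Type*} [AddCommMonoid G]

/-- The zeta transform on the active levels: a value is added to all values with more digits
`true` on the active levels. -/
def zl : List Bool → (List Bool → G) → List Bool → G
  | false :: ls, f, v :: w => zl ls (fun w => f (v :: w)) w
  | true :: ls, f, v :: w =>
      if v then zl ls (fun w => f (true :: w)) w + zl ls (fun w => f (false :: w)) w
      else zl ls (fun w => f (false :: w)) w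
  | _, f, w => f w

@[simp] theorem zl_nil (f : List Bool → G) (w : List Bool) : zl [] f w = f w := by
  cases w <;> rfl

@[simp] theorem zl_cons_nil (t : Bool) (ls : List Bool) (f : List Bool → G) :
    zl (t :: ls) f [] = f [] := by
  cases t <;> rfl

@[simp] theorem zl_false (ls : List Bool) (f : List Bool → G) (v : Bool) (w : List Bool) :
    zl (false :: ls) f (v :: w) = zl ls (fun w => f (v :: w)) w := rfl

@[simp] theorem zl_true_false (ls : List Bool) (f : List Bool → G) (w : List Bool) :
    zl (true :: ls) f (false :: w) = zl ls (fun w => f (false :: w)) w := rfl

@[simp] theorem zl_true_true (ls : List Bool) (f : List Bool → G) (w : List Bool) :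
    zl (true :: ls) f (true :: w) =
      zl ls (fun w => f (true :: w)) w + zl ls (fun w => f (false :: w)) w := rfl

theorem zl_add (ls : List Bool) (f g : List Bool → G) (w : List Bool) :
    zl ls (fun w => f w + g w) w = zl ls f w + zl ls g w := by
  induction ls generalizing f g w with
  | nil => simp
  | cons t ls ih =>
    cases w with
    | nil => simp
    | cons v w =>
      cases t with
      | false => simp only [zl_false, ih]
      | true =>
        cases v with
        | false => simp only [zl_true_false, ih]
        | true =>
          simp only [zl_true_true, ih]
          exact add_add_add_comm _ _ _ _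

/-- The levels may be treated one after the other. -/
theorem zl_split (n : ℕ) (ls : List Bool) (f : List Bool → G) (w : List Bool) :
    zl (restAct n ls) (zl (firstAct n ls) f) w = zl ls f w := by
  induction ls generalizing n f w with
  | nil => cases n <;> simp [firstAct, restAct]
  | cons t ls ih =>
    cases w with
    | nil => cases t <;> cases n <;> simp [firstAct, restAct]
    | cons v w =>
      cases t with
      | false =>
        have e1 : firstAct n (false :: ls) = false :: firstAct n ls := by cases n <;> rfl
        have e2 : restAct n (false :: ls) = false :: restAct n ls := by cases n <;> rfl
        rw [e1, e2, zl_false, zl_false]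
        exact ih n _ w
      | true =>
        cases n with
        | zero =>
          rw [firstAct, restAct]
          cases v with
          | false =>
            rw [zl_true_false, zl_true_false]
            exact ih 0 _ w
          | true =>
            rw [zl_true_true, zl_true_true]
            exact congrArg₂ (· + ·) (ih 0 _ w) (ih 0 _ w)
        | succ n =>
          rw [firstAct, restAct, zl_false]
          cases v with
          | false =>
            rw [zl_true_false]
            exact ih n _ w
          | true =>
            have e : (fun w => zl (true :: firstAct n ls) f (true :: w)) = fun w =>
                zl (firstAct n ls) (fun w => f (true :: w)) w +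
                  zl (firstAct n ls) (fun w => f (false :: w)) w := by
              funext w
              rw [zl_true_true]
            rw [e, zl_true_true, zl_add]
            exact congrArg₂ (· + ·) (ih n _ w) (ih n _ w)

/-- The sweep with chunks of one level is the zeta transform. -/
theorem slideAll_one (ls : List Bool) (f : List Bool → G) (w : List Bool) :
    slideAll (fun x y => x + y) [false] [true] ls f w = zl ls f w := by
  induction ls generalizing f w with
  | nil => simp [slideAll, nxt, cur]
  | cons t ls ih =>
    cases w with
    | nil => cases t <;> simp [slideAll, nxt, cur]
    | cons v w =>
      cases t with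
      | false =>
        rw [zl_false, ← ih]
        simp only [slideAll, nxt, cur]
      | true =>
        have e : slideAll (fun x y : G => x + y) [false] [true] (true :: ls) f (v :: w) =
            slideAll (fun x y : G => x + y) [false] [true] ls
              (fun w => if v = false then f (v :: w) else f (true :: w) + f (false :: w)) w := by
          simp only [slideAll, nxt, cur, List.length_singleton, if_true, Bool.false_eq_true,
            if_false, ins]
        rw [e, ih]
        cases v with
        | false => simp
        | true =>
          simp only [Bool.true_eq_false, if_false]
          rw [zl_add, zl_true_true]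

end zl

end Vale.Agent.P338.R3.H651
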