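import Vale.Agent.P338.R3.H651.Zstep

/-!
# The cost of one zeta step
-/

namespace Vale.Agent.P338.R3.H651

open Vale.Agent.P338.R2.H110 Vale.Agent.P338.R3.H527
open Vale.Agent.P338.R3.H313 (Sw)

/-- The acts of a sweep. -/
def swActs (x : Sw) : List H313.Act' :=
  (List.range (H313.swLen x)).flatMap fun u => H313.Ctl.reps (H313.swIns x u)

theorem swActs_eq (x : Sw) : swActs x = H313.Ctl.reps
    (H313.insEvs x.1.1 x.1.2 (go x.2.1 x.2.2.1 x.2.2.2 (.pre x.2.1 x.2.2.1))) := by
  obtain ⟨⟨d, s⟩, a, b, ls⟩ := x
  exact H313.sweep_acts d s a b ls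

theorem length_reps_actsEv (d s : Bool) (e : Ev) :
    (H313.Ctl.reps (H313.actsEv d s (H313.cev e))).length ≤ 2 * e.cost := by
  cases e <;> simp [H313.actsEv_adv, H313.actsEv_push, H313.actsEv_flip, H313.actsEv_pop,
    H313.Ctl.reps, H313.Ctl.rep, Ev.cost] <;> omega

theorem length_reps_insEvs (d s : Bool) (l : List Ev) :
    (H313.Ctl.reps (H313.insEvs d s l)).length ≤ 2 * cost l := by
  induction l with
  | nil => simp [H313.insEvs, H313.Ctl.reps]
  | cons e l ih =>
    have h1 := length_reps_actsEv d s e
    have e1 : H313.Ctl.reps (H313.insEvs d s (e :: l)) =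
        H313.Ctl.reps (H313.actsEv d s (H313.cev e)) ++ H313.Ctl.reps (H313.insEvs d s l) := by
      simp [H313.insEvs, H313.Ctl.reps]
    rw [e1, List.length_append, cost_cons]
    omega

/-- The number of acts of a sweep. -/
theorem length_swActs {n : ℕ} {x : Sw} (h : OkS n x) :
    x.2.1.length * 2 ^ x.2.1.length * (swActs x).length ≤
      2 * (2 ^ n * (x.2.1.length * 2 ^ x.2.1.length + 3 * act x.2.2.2)) := by
  have h1 := cost_sweep h.fw h.ok
  rw [h.len] at h1
  have h2 := length_reps_insEvs x.1.1 x.1.2 (go x.2.1 x.2.2.1 x.2.2.2 (.pre x.2.1 x.2.2.1))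
  rw [← swActs_eq] at h2
  calc _ ≤ x.2.1.length * 2 ^ x.2.1.length *
      (2 * cost (go x.2.1 x.2.2.1 x.2.2.2 (.pre x.2.1 x.2.2.1))) := Nat.mul_le_mul_left _ h2
    _ = 2 * (x.2.1.length * 2 ^ x.2.1.length *
      cost (go x.2.1 x.2.2.1 x.2.2.2 (.pre x.2.1 x.2.2.1))) := by ring
    _ ≤ _ := Nat.mul_le_mul_left _ h1

/-- The acts of the sweep as a micro step, which starts and ends with the head at the left end. -/
def swFull (x : Sw) : List H313.Act' :=
  if x.1.1 then swActs x ++ List.replicate (2 ^ x.2.2.2.length) (H313.mvA false)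
  else List.replicate (2 ^ x.2.2.2.length) (H313.mvA true) ++ swActs x

theorem length_swFull (x : Sw) :
    (swFull x).length = (swActs x).length + 2 ^ x.2.2.2.length := by
  unfold swFull
  split_ifs <;> simp [add_comm]

theorem length_swActs_sw {m : ℕ} (hm : 0 < m) {ls : List Bool} (ho : ok m ls m) {t : Slide}
    (h : t.1 < 2 ^ m ∧ t.2.1 < 2 ^ m ∧ t.1 ≠ t.2.1) :
    ((swActs (sw m ls t)).length : ℝ) ≤ 2 ^ ls.length * (2 + 6 * (act ls / (m * 2 ^ m))) := by
  have h1 := length_swActs (sw_ok ho h)
  have e1 : (sw m ls t).2.1.length = m := by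
    unfold sw; split_ifs <;> simp
  have e2 : (sw m ls t).2.2.2 = ls := by
    unfold sw; split_ifs <;> simp
  rw [e1, e2] at h1
  have h2 : ((m * 2 ^ m * (swActs (sw m ls t)).length : ℕ) : ℝ) ≤
      ((2 * (2 ^ ls.length * (m * 2 ^ m + 3 * act ls)) : ℕ) : ℝ) := by exact_mod_cast h1
  push_cast at h2
  have hm' : (0 : ℝ) < m := by exact_mod_cast hm
  have h3 : (0 : ℝ) < m * 2 ^ m := by positivity
  have h4 : (m * 2 ^ m : ℝ) * (swActs (sw m ls t)).length ≤
      (m * 2 ^ m) * (2 ^ ls.length * (2 + 6 * (act ls / (m * 2 ^ m)))) := by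
    refine h2.trans (le_of_eq ?_)
    field_simp
    ring
  exact le_of_mul_le_mul_left h4 h3

theorem length_swActs_sw1 (ls : List Bool) :
    ((swActs (sw1 ls)).length : ℝ) ≤ 2 ^ ls.length * (2 + 3 * act ls) := by
  have h1 := length_swActs (sw1_ok ls)
  have h2 : ((1 * 2 ^ 1 * (swActs (sw1 ls)).length : ℕ) : ℝ) ≤
      ((2 * (2 ^ ls.length * (1 * 2 ^ 1 + 3 * act ls)) : ℕ) : ℝ) := by exact_mod_cast h1
  push_cast at h2
  nlinarith

/-- The words of a sweep do not matter for the number of acts: the direction neither. -/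
theorem length_swActs_rv (x : Sw) : (swActs (rv x)).length = (swActs x).length := by
  rw [swActs_eq, swActs_eq]
  have : ∀ (d s : Bool) (l : List Ev), (H313.Ctl.reps (H313.insEvs (!d) s l)).length =
      (H313.Ctl.reps (H313.insEvs d s l)).length := by
    intro d s l
    induction l with
    | nil => rfl
    | cons e l ih =>
      have e1 : ∀ d, H313.Ctl.reps (H313.insEvs d s (e :: l)) =
          H313.Ctl.reps (H313.actsEv d s (H313.cev e)) ++
            H313.Ctl.reps (H313.insEvs d s l) := by
        intro d
        simp [H313.insEvs, H313.Ctl.reps]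
      rw [e1, e1, List.length_append, List.length_append, ih]
      congr 1
      cases e <;> simp [H313.actsEv_adv, H313.actsEv_push, H313.actsEv_flip, H313.actsEv_pop,
        H313.Ctl.reps, H313.Ctl.rep]
  exact this _ _ _

theorem length_sws (tr : Bool) (P : ℕ × List Slide) (ls : List Bool) :
    (sws tr P ls).length = P.2.length + 1 := by simp [sws]

/-- **Cost of one zeta step**: `t = act ls` active levels, `P = (m, slides)`. -/
theorem cost_sws (tr : Bool) {P : ℕ × List Slide} (h : Good P.1 P.2) (ls : List Bool) :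
    (((sws tr P ls).map fun x => (swFull x).length).sum : ℝ) ≤
      2 ^ ls.length * (3 * P.2.length + 6 * (P.2.length * act ls / (P.1 * 2 ^ P.1)) +
        3 * P.1) := by
  have e0 : ((sws tr P ls).map fun x => (swFull x).length).sum =
      ((sws false P ls).map fun x => (swFull x).length).sum := by
    cases tr with
    | false => rfl
    | true =>
      have e : sws true P ls = (sws false P ls).map rv := by simp [sws]
      rw [e, List.map_map]
      congr 1
      refine List.map_congr_left fun x _ => ?_
      simp only [Function.comp, length_swFull, length_swActs_rv]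
      rfl
  have hm : (0 : ℝ) < P.1 := by exact_mod_cast h.pos
  have ho : ok P.1 (firstAct (nfull P.1 ls) ls) P.1 :=
    ok_firstAct h.pos (act ls / P.1) (nfull_le P.1 ls)
  have e1 : sws false P ls = (P.2.map (sw P.1 (firstAct (nfull P.1 ls) ls))) ++
      [sw1 (restAct (nfull P.1 ls) ls)] := by simp [sws]
  have hb : ∀ (l : List Slide), (∀ t ∈ l, t.1 < 2 ^ P.1 ∧ t.2.1 < 2 ^ P.1 ∧ t.1 ≠ t.2.1) →
      ((((l.map (sw P.1 (firstAct (nfull P.1 ls) ls))).map fun x => (swFull x).length).sum : ℕ) : ℝ) ≤
        l.length * (2 ^ ls.length * (3 + 6 * (act ls / (P.1 * 2 ^ P.1)))) := by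
    intro l hl
    induction l with
    | nil => simp
    | cons t l ih =>
      have h1 := length_swActs_sw h.pos ho (hl t List.mem_cons_self)
      have h2 := ih fun t ht => hl t (List.mem_cons_of_mem _ ht)
      rw [List.map_cons, List.map_cons, List.sum_cons, length_swFull]
      have e2 : (sw P.1 (firstAct (nfull P.1 ls) ls) t).2.2.2 = firstAct (nfull P.1 ls) ls := by
        unfold sw; split_ifs <;> simp
      rw [e2, length_firstAct, Nat.cast_add, Nat.cast_add, Nat.cast_pow, Nat.cast_ofNat]
      rw [length_firstAct, act_firstAct, Nat.cast_min] at h1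
      have h3 : (min (nfull P.1 ls : ℝ) (act ls) : ℝ) / (P.1 * 2 ^ P.1) ≤
          act ls / (P.1 * 2 ^ P.1) := by
        gcongr
        exact min_le_right _ _
      have h4 : (2 : ℝ) ^ ls.length * (2 + 6 * (min (nfull P.1 ls : ℝ) (act ls) /
          (P.1 * 2 ^ P.1))) ≤ 2 ^ ls.length * (2 + 6 * (act ls / (P.1 * 2 ^ P.1))) := by gcongr
      rw [List.length_cons, Nat.cast_add, Nat.cast_one]
      linarith
  rw [e0, e1, List.map_append, List.sum_append, List.map_cons, List.map_nil, List.sum_cons,
    List.sum_nil]
  have h1 := hb P.2 h.rng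
  have h2 := length_swActs_sw1 (restAct (nfull P.1 ls) ls)
  rw [length_restAct, act_restAct] at h2
  have h3 : act ls - nfull P.1 ls + 1 ≤ P.1 := by
    have h4 : nfull P.1 ls + act ls % P.1 = act ls := Nat.div_add_mod _ _
    have h5 : act ls % P.1 < P.1 := Nat.mod_lt _ h.pos
    omega
  have h4 : ((act ls - nfull P.1 ls : ℕ) : ℝ) + 1 ≤ P.1 := by exact_mod_cast h3
  have e2 : (sw1 (restAct (nfull P.1 ls) ls)).2.2.2 = restAct (nfull P.1 ls) ls := rfl
  rw [length_swFull, e2, length_restAct, Nat.cast_add, Nat.cast_add, Nat.cast_add, Nat.cast_pow,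
    Nat.cast_ofNat, Nat.cast_zero]
  have h5 : (0 : ℝ) < 2 ^ ls.length := by positivity
  calc _ ≤ (P.2.length * (2 ^ ls.length * (3 + 6 * (act ls / (P.1 * 2 ^ P.1)))) : ℝ) +
      (2 ^ ls.length * (2 + 3 * ((act ls - nfull P.1 ls : ℕ) : ℝ)) + 2 ^ ls.length + 0) := by
        gcongr
    _ ≤ (P.2.length * (2 ^ ls.length * (3 + 6 * (act ls / (P.1 * 2 ^ P.1)))) : ℝ) +
      (2 ^ ls.length * (3 * P.1)) := by
        nlinarith
    _ = _ := by ring

/-! ### The number of instructions -/

theorem one_le_cost_evAt (a b : List Bool) : ∀ (ls : List Bool) (st : St) (w : List Bool),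
    ∀ e ∈ evAt a b ls st w, 1 ≤ e.cost
  | [], st, w, e, he => by cases w <;> simp [evAt] at he
  | false :: ls, st, [], e, he => by simp [evAt] at he
  | true :: ls, st, [], e, he => by simp [evAt] at he
  | false :: ls, st, v :: w, e, he => one_le_cost_evAt a b ls st w e (by simpa [evAt] using he)
  | true :: ls, st, v :: w, e, he => by
    have hmark : ∀ st : St, ∀ e ∈ mark (2 ^ ls.length) st, 1 ≤ e.cost := by
      intro st e he
      unfold mark at he
      split at he
      · simp only [List.mem_singleton] at he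
        subst he
        exact Nat.one_le_two_pow
      · simp only [List.mem_singleton] at he
        subst he
        exact Nat.one_le_two_pow
      · simp at he
    have hfl : ∀ e ∈ fl ls.length st, 1 ≤ e.cost := by
      intro e he
      unfold fl at he
      split at he
      · split_ifs at he
        · simp at he
        · simp only [List.mem_singleton] at he
          subst he
          exact Nat.one_le_two_pow
      · simp at he
    simp only [evAt, List.mem_append] at he
    rcases he with he | he
    · split_ifs at he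
      · rw [List.mem_append] at he
        rcases he with he | he
        · exact hfl e he
        · exact hmark _ e he
      · rw [List.mem_append] at he
        rcases he with he | he
        · simp at he
        · exact hmark _ e he
      · simp at he
    · exact one_le_cost_evAt a b ls _ w e he

theorem swIns_eq (x : Sw) (u : ℕ) : H313.swIns x u =
    (evAt x.2.1 x.2.2.1 x.2.2.2 (.pre x.2.1 x.2.2.1) (H313.bw x.2.2.2.length u) ++
      [Ev.adv]).flatMap fun e => H313.actsEv x.1.1 x.1.2 (H313.cev e) := by
  unfold H313.swIns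
  rw [H313.evL_eq _ _ _ _ (by simp), List.flatMap_append, List.flatMap_append, List.flatMap_map]
  rfl

/-- Every instruction of a sweep is repeated at least once. -/
theorem one_le_swIns (x : Sw) (u : ℕ) : ∀ y ∈ H313.swIns x u, 1 ≤ y.1 := by
  intro y hy
  rw [swIns_eq, List.mem_flatMap] at hy
  obtain ⟨e, he, hy⟩ := hy
  have h1 : 1 ≤ e.cost := by
    rw [List.mem_append, List.mem_singleton] at he
    rcases he with he | rfl
    · exact one_le_cost_evAt _ _ _ _ _ e he
    · exact le_rfl
  cases e with
  | adv =>
    rw [H313.actsEv_adv, List.mem_singleton] at hy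
    rw [hy]
  | push k =>
    rw [H313.actsEv_push] at hy
    simp only [List.mem_cons, List.not_mem_nil, or_false] at hy
    rcases hy with rfl | rfl <;> exact h1
  | flip k =>
    rw [H313.actsEv_flip, List.mem_singleton] at hy
    rw [hy]
    exact h1
  | pop k =>
    rw [H313.actsEv_pop] at hy
    simp only [List.mem_cons, List.not_mem_nil, or_false] at hy
    rcases hy with rfl | rfl <;> exact h1

theorem length_le_length_reps {A : Type} (l : List (ℕ × A)) (h : ∀ y ∈ l, 1 ≤ y.1) :
    l.length ≤ (H313.Ctl.reps l).length := by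
  induction l with
  | nil => simp
  | cons y l ih =>
    have h1 := h y List.mem_cons_self
    have h2 := ih fun y hy => h y (List.mem_cons_of_mem _ hy)
    have e1 : H313.Ctl.reps (y :: l) = List.replicate y.1 y.2 ++ H313.Ctl.reps l := rfl
    rw [e1, List.length_append, List.length_replicate, List.length_cons]
    omega

/-- The number of instructions of a sweep is at most the number of its acts. -/
theorem sum_length_swIns (x : Sw) :
    ((List.range (H313.swLen x)).map fun u => (H313.swIns x u).length).sum ≤
      (swActs x).length := by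
  unfold swActs
  rw [List.length_flatMap]
  exact List.sum_le_sum fun u _ => length_le_length_reps _ (one_le_swIns x u)

end Vale.Agent.P338.R3.H651
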