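import Vale.Agent.P338.R3.H651.ZCost
import Vale.Agent.P338.R3.H527.Zpass

/-!
# The cost of one zeta step on the array of cells
-/

namespace Vale.Agent.P338.R3.H651

open Vale.Agent.P338.R2.H110 Vale.Agent.P338.R3.H527
open Vale.Agent.P338.R3.H313 (Sw)

theorem act_lvl (J : List ℕ) (K : ℕ) : act (lvl J K) = (actJ J K).length := by
  induction K with
  | zero => simp [lvl, actJ]
  | succ K ih =>
    rw [actJ_succ, lvl]
    by_cases h : K ∈ J
    · simp [h, ih]
    · simp [h, ih]

/-- The number of active levels is at most the number of positions. -/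
theorem act_lvl_le (J : List ℕ) (K : ℕ) : act (lvl J K) ≤ J.length := by
  rw [act_lvl]
  have h1 : (actJ J K).Nodup := List.nodup_range.filter _
  have h2 : actJ J K ⊆ J := by
    intro b hb
    simp only [actJ, List.mem_filter, decide_eq_true_eq] at hb
    exact hb.2
  exact (h1.subperm h2).length_le

theorem act_lvC_le (J : List ℕ) (K : ℕ) : act (lvC J K) ≤ J.length := by
  have := act_lvl_le (J.map (· + 2)) (K + 2)
  rwa [List.length_map] at this

@[simp] theorem length_lvC (J : List ℕ) (K : ℕ) : (lvC J K).length = K + 2 := by simp [lvC]

theorem length_posActs (x : Sw) : (posActs x).length = (swFull x).length := by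
  obtain ⟨⟨d, s⟩, a, b, ls⟩ := x
  rw [length_swFull]
  unfold posActs
  have e : H527.swActs ((d, s), a, b, ls) = swActs ((d, s), a, b, ls) := rfl
  have e1 : H313.swLen ((d, s), a, b, ls) = 2 ^ ls.length := rfl
  cases d
  · simp [e, e1, add_comm]
  · simp [e, e1]

/-- **Cost of one zeta step on the array of cells**: `P = (m, slides)`, `K` index bits, positions
`J`; no hypothesis on `J`. -/
theorem length_zActs (tr : Bool) {P : ℕ × List Slide} (h : Good P.1 P.2) (J : List ℕ) (K : ℕ) :
    ((zActs tr P (lvC J K)).length : ℝ) ≤ 2 ^ (K + 2) *
      (3 * P.2.length + 6 * (P.2.length * J.length / (P.1 * 2 ^ P.1)) + 3 * P.1) := by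
  have h1 := cost_sws tr h (lvC J K)
  have e : (zActs tr P (lvC J K)).length =
      ((sws tr P (lvC J K)).map fun x => (swFull x).length).sum := by
    rw [zActs, List.length_flatMap]
    congr 1
    exact List.map_congr_left fun x _ => length_posActs x
  rw [e]
  refine h1.trans ?_
  rw [length_lvC]
  have h2 : (act (lvC J K) : ℝ) ≤ J.length := by exact_mod_cast act_lvC_le J K
  gcongr

/-- The number of instructions of one zeta step, over all cells of all sweeps and the moves to or
from the right end (one instruction each), is at most the number of acts. -/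
theorem sum_instr_le (tr : Bool) (P : ℕ × List Slide) (ls : List Bool) :
    ((sws tr P ls).map fun x =>
      ((List.range (H313.swLen x)).map fun u => (H313.swIns x u).length).sum + 1).sum ≤
      (zActs tr P ls).length := by
  rw [zActs, List.length_flatMap]
  refine List.sum_le_sum fun x _ => ?_
  rw [length_posActs, length_swFull]
  have := sum_length_swIns x
  have := Nat.one_le_two_pow (n := x.2.2.2.length)
  omega

end Vale.Agent.P338.R3.H651
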