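import Vale.Agent.P338.R3.H651.ZDef
import Vale.Agent.P338.R3.H527.Word3

/-!
# The sweeps of one zeta step: correctness
-/

set_option linter.unusedSectionVars false

namespace Vale.Agent.P338.R3.H651

open Vale.Agent.P338.R2.H110 Vale.Agent.P338.R3.H527
open Vale.Agent.P338.R3.H313 (Sw)

section zeta

variable {G : Type*} [AddCommGroup G]

theorem zl_eq_zetaL (ls : List Bool) (f : List Bool → G) (w : List Bool) :
    zl ls f w = zetaL ls f w := by
  induction ls generalizing f w with
  | nil => cases w <;> rfl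
  | cons t ls ih =>
    cases w with
    | nil => cases t <;> rfl
    | cons v w =>
      cases t with
      | false => exact ih _ w
      | true =>
        cases v with
        | false => exact ih _ w
        | true =>
          have e : zetaL (true :: ls) f (true :: w) =
            zetaL ls (fun w => f (false :: w) + f (true :: w)) w := rfl
          rw [zl_true_true, e, ← ih, zl_add, add_comm]

/-- The zeta transform (`tr = false`: to the cells with more bits `true`), and its transpose
(`tr = true`: to the cells with fewer bits `true`). -/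
def zetaS (tr : Bool) (ls : List Bool) (f : List Bool → G) (w : List Bool) : G :=
  if tr then zetaL ls (fun w => f (cpl w)) (cpl w) else zetaL ls f w

/-- The effect of a sweep. -/
def fnS (x : Sw) (f : List Bool → G) : List Bool → G :=
  if x.1.1 then slideAll (opS x.1.2) x.2.1 x.2.2.1 x.2.2.2 f
  else fun w => slideAll (opS x.1.2) x.2.1 x.2.2.1 x.2.2.2 (fun w => f (cpl w)) (cpl w)

end zeta

/-- A sweep is correct: the direction fits, and the chunks are complete. -/
structure OkS (n : ℕ) (x : Sw) : Prop where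
  len : x.2.2.2.length = n
  fw : fw x.2.1 x.2.2.1
  ok : ok x.2.1.length x.2.2.2 x.2.1.length

theorem OkS.rv {n : ℕ} {x : Sw} (h : OkS n x) : OkS n (rv x) := ⟨h.len, h.fw, h.ok⟩

/-! ### Directions -/

theorem fw_bw {m i j : ℕ} (hj : j < 2 ^ m) (hji : j < i) (hi : i < 2 ^ m) :
    fw (bw m j) (bw m i) := by
  induction m generalizing i j with
  | zero => simp at hi; omega
  | succ m ih =>
    rw [bw, bw, fw]
    by_cases hjb : j < 2 ^ m
    · by_cases hib : i < 2 ^ m
      · rw [Nat.testBit_lt_two_pow hjb, Nat.testBit_lt_two_pow hib, if_pos rfl]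
        exact ih hjb hji hib
      · obtain ⟨k, rfl⟩ : ∃ k, i = 2 ^ m + k := ⟨i - 2 ^ m, by omega⟩
        have hk : k < 2 ^ m := by rw [pow_succ] at hi; omega
        have : (2 ^ m + k).testBit m = true := by
          rw [Nat.testBit_two_pow_add_eq, Nat.testBit_lt_two_pow hk]; rfl
        rw [Nat.testBit_lt_two_pow hjb, this, if_neg (by simp)]
        simp
    · obtain ⟨k, rfl⟩ : ∃ k, i = 2 ^ m + k := ⟨i - 2 ^ m, by omega⟩
      have hk : k < 2 ^ m := by rw [pow_succ] at hi; omega
      obtain ⟨l, rfl⟩ : ∃ l, j = 2 ^ m + l := ⟨j - 2 ^ m, by omega⟩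
      have hl : l < 2 ^ m := by rw [pow_succ] at hj; omega
      have h1 : (2 ^ m + k).testBit m = true := by
        rw [Nat.testBit_two_pow_add_eq, Nat.testBit_lt_two_pow hk]; rfl
      have h2 : (2 ^ m + l).testBit m = true := by
        rw [Nat.testBit_two_pow_add_eq, Nat.testBit_lt_two_pow hl]; rfl
      have e1 : bw m (2 ^ m + k) = bw m k := bw_congr fun t ht => by
        rw [Nat.testBit_two_pow_add_gt ht]
      have e2 : bw m (2 ^ m + l) = bw m l := bw_congr fun t ht => by
        rw [Nat.testBit_two_pow_add_gt ht]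
      rw [h1, h2, if_pos rfl, e1, e2]
      exact ih hl (by omega) hk

theorem fw_cpl : ∀ {a b : List Bool}, fw a b → fw (cpl b) (cpl a)
  | x :: a, y :: b, h => by
    rw [cpl_cons, cpl_cons]
    unfold fw at h ⊢
    by_cases e : x = y
    · rw [if_pos e] at h
      rw [if_pos (by rw [e])]
      exact fw_cpl h
    · rw [if_neg e] at h
      rw [if_neg (fun h1 => e (Bool.not_inj h1.symm))]
      obtain ⟨rfl, rfl, h⟩ := h
      simp [h]
  | [], _, h => by cases h
  | _ :: _, [], h => by cases h

theorem nfull_le (m : ℕ) (ls : List Bool) : nfull m ls ≤ act ls := Nat.mul_div_le _ _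

theorem sw_ok {m : ℕ} {ls : List Bool} (ho : ok m ls m) {t : Slide}
    (h : t.1 < 2 ^ m ∧ t.2.1 < 2 ^ m ∧ t.1 ≠ t.2.1) : OkS ls.length (sw m ls t) := by
  obtain ⟨h1, h2, h3⟩ := h
  unfold sw
  by_cases h4 : t.2.1 < t.1
  · rw [if_pos h4]
    exact ⟨rfl, fw_bw h2 h4 h1, by simpa using ho⟩
  · rw [if_neg h4]
    exact ⟨rfl, fw_cpl (fw_bw h1 (by omega) h2), by simpa using ho⟩

theorem sw1_ok (ls : List Bool) : OkS ls.length (sw1 ls) :=
  ⟨rfl, by simp [sw1, fw], by simpa [sw1] using ok_one ls⟩

theorem mem_sws {tr : Bool} {P : ℕ × List Slide} {ls : List Bool} {x : Sw} (h : x ∈ sws tr P ls) :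
    ∃ y, (y ∈ (P.2.map (sw P.1 (firstAct (nfull P.1 ls) ls))) ∨
      y = sw1 (restAct (nfull P.1 ls) ls)) ∧ (x = y ∨ x = rv y) := by
  rw [sws, List.mem_map] at h
  obtain ⟨y, hy, rfl⟩ := h
  rw [List.mem_append, List.mem_singleton] at hy
  refine ⟨y, hy, ?_⟩
  cases tr
  · exact .inl rfl
  · exact .inr rfl

/-- All sweeps of a step are correct. -/
theorem sws_ok {tr : Bool} {P : ℕ × List Slide} (h : Good P.1 P.2) (ls : List Bool) :
    ∀ x ∈ sws tr P ls, OkS ls.length x := by
  intro x hx
  obtain ⟨y, hy, hxy⟩ := mem_sws hx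
  have hy' : OkS ls.length y := by
    rcases hy with hy | rfl
    · rw [List.mem_map] at hy
      obtain ⟨t, ht, rfl⟩ := hy
      have := sw_ok (ls := firstAct (nfull P.1 ls) ls) (ok_firstAct h.pos _ (nfull_le _ _))
        (h.rng t ht)
      rwa [length_firstAct] at this
    · have := sw1_ok (restAct (nfull P.1 ls) ls)
      rwa [length_restAct] at this
  rcases hxy with rfl | rfl
  · exact hy'
  · exact hy'.rv

/-! ### Semantics -/

section sem

variable {G : Type*} [AddCommGroup G]

theorem fnS_rv (x : Sw) (f : List Bool → G) (w : List Bool) :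
    fnS (rv x) f w = fnS x (fun w => f (cpl w)) (cpl w) := by
  obtain ⟨⟨d, s⟩, a, b, ls⟩ := x
  cases d <;> simp [fnS, rv]

theorem slideAll_cgr {a b : List Bool} (s : Bool) {ls : List Bool} (h : fw a b)
    (ho : ok a.length ls a.length) {f g : List Bool → G}
    (hfg : ∀ w, w.length = ls.length → f w = g w) :
    ∀ w, w.length = ls.length → slideAll (opS s) a b ls f w = slideAll (opS s) a b ls g w := by
  intro w hw
  rw [slideAll_eq_allg _ h ho f w hw, slideAll_eq_allg _ h ho g w hw]
  exact nxg_cgr (cu_cgr _ _ _) ls _ _ _ (cu_cgr _ _ _ ls f g hfg) w hw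

/-- A sweep depends only on the words of the right length. -/
theorem OkS.cgr {n : ℕ} {x : Sw} (h : OkS n x) {f g : List Bool → G}
    (hfg : ∀ w, w.length = n → f w = g w) : ∀ w, w.length = n → fnS x f w = fnS x g w := by
  obtain ⟨⟨d, s⟩, a, b, ls⟩ := x
  obtain ⟨h1, h2, h3⟩ := h
  simp only at h1 h2 h3
  subst h1
  intro w hw
  cases d with
  | true => exact slideAll_cgr s h2 h3 hfg w hw
  | false =>
    exact slideAll_cgr s h2 h3 (fun w hw => hfg _ (by simpa using hw)) (cpl w) (by simpa using hw)

theorem foldl_cgr {n : ℕ} : ∀ (l : List Sw) (_ : ∀ x ∈ l, OkS n x) {f g : List Bool → G}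
    (_ : ∀ w, w.length = n → f w = g w) (w : List Bool), w.length = n →
    l.foldl (fun f x => fnS x f) f w = l.foldl (fun f x => fnS x f) g w
  | [], _, _, _, hfg, w, hw => hfg w hw
  | x :: l, h, f, g, hfg, w, hw => by
    rw [List.foldl_cons, List.foldl_cons]
    exact foldl_cgr l (fun y hy => h y (List.mem_cons_of_mem _ hy))
      ((h x List.mem_cons_self).cgr hfg) w hw

/-- The transposed list is the conjugate of the list. -/
theorem foldl_rv {n : ℕ} : ∀ (l : List Sw) (_ : ∀ x ∈ l, OkS n x) {f g : List Bool → G}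
    (_ : ∀ w, w.length = n → f w = g (cpl w)) (w : List Bool), w.length = n →
    (l.map rv).foldl (fun f x => fnS x f) f w = l.foldl (fun f x => fnS x f) g (cpl w)
  | [], _, _, _, hfg, w, hw => hfg w hw
  | x :: l, h, f, g, hfg, w, hw => by
    rw [List.map_cons, List.foldl_cons, List.foldl_cons]
    refine foldl_rv l (fun y hy => h y (List.mem_cons_of_mem _ hy)) (fun w hw => ?_) w hw
    rw [fnS_rv]
    refine (h x List.mem_cons_self).cgr (fun w hw => ?_) (cpl w) (by simpa using hw)
    have := hfg (cpl w) (by simpa using hw)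
    rwa [cpl_cpl] at this

theorem fnS_sw {m : ℕ} {ls : List Bool} (ho : ok m ls m) {t : Slide}
    (h : t.1 < 2 ^ m ∧ t.2.1 < 2 ^ m ∧ t.1 ≠ t.2.1) (f : List Bool → G) (w : List Bool)
    (hw : w.length = ls.length) : fnS (sw m ls t) f w = allg (cut m t) m ls f w := by
  have e : fnS (sw m ls t) f = slideD (opS t.2.2) (decide (t.2.1 < t.1)) (bw m t.2.1) (bw m t.1)
      ls f := by
    unfold sw
    by_cases h4 : t.2.1 < t.1
    · rw [if_pos h4, decide_eq_true h4]
      rfl
    · rw [if_neg h4, decide_eq_false h4]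
      rfl
  rw [e, slideD_eq_allg _ (fwD_of_ne h.1 h.2.1 h.2.2) (by simpa using ho) f w hw, length_bw]
  rfl

/-- The slides of the program, not transposed. -/
theorem foldl_sw {m : ℕ} {l : List Slide} (h : Good m l) {ls : List Bool} (ho : ok m ls m)
    (f : List Bool → G) (w : List Bool) (hw : w.length = ls.length) :
    (l.map (sw m ls)).foldl (fun f x => fnS x f) f w = zetaL ls f w := by
  rw [← allp_eq_zetaL h ho f w hw, allp]
  have key : ∀ (l : List Slide), (∀ t ∈ l, t.1 < 2 ^ m ∧ t.2.1 < 2 ^ m ∧ t.1 ≠ t.2.1) →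
      ∀ (f g : List Bool → G), (∀ w, w.length = ls.length → f w = g w) → ∀ w,
      w.length = ls.length → (l.map (sw m ls)).foldl (fun f x => fnS x f) f w =
        l.foldl (fun f t => allg (cut m t) m ls f) g w := by
    intro l
    induction l with
    | nil => intro _ f g hfg w hw; exact hfg w hw
    | cons t l ih =>
      intro hr f g hfg w hw
      rw [List.map_cons, List.foldl_cons, List.foldl_cons]
      refine ih (fun s hs => hr s (List.mem_cons_of_mem _ hs)) _ _ (fun w hw => ?_) w hw
      rw [fnS_sw ho (hr t List.mem_cons_self) f w hw, allg, allg]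
      exact nxg_cgr (cu_cgr _ _ _) ls _ _ _ (cu_cgr _ _ _ ls f g hfg) w hw
  exact key l h.rng f f (fun _ _ => rfl) w hw

theorem fnS_sw1 (ls : List Bool) (f : List Bool → G) (w : List Bool) :
    fnS (sw1 ls) f w = zetaL ls f w := by
  rw [← zl_eq_zetaL, ← slideAll_one]
  rfl

/-- **The sweeps of a zeta step compute the zeta transform on the active levels.** -/
theorem sws_fn (tr : Bool) {P : ℕ × List Slide} (h : Good P.1 P.2) (ls : List Bool)
    (f : List Bool → G) (w : List Bool) (hw : w.length = ls.length) :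
    (sws tr P ls).foldl (fun f x => fnS x f) f w = zetaS tr ls f w := by
  have ho : ok P.1 (firstAct (nfull P.1 ls) ls) P.1 :=
    ok_firstAct h.pos (act ls / P.1) (nfull_le P.1 ls)
  have main : ∀ (f : List Bool → G) (w : List Bool), w.length = ls.length →
      (sws false P ls).foldl (fun f x => fnS x f) f w = zetaL ls f w := by
    intro f w hw
    have e : zetaL (firstAct (nfull P.1 ls) ls) f = zl (firstAct (nfull P.1 ls) ls) f := by
      funext w
      rw [zl_eq_zetaL]
    have hsplit : zetaL (restAct (nfull P.1 ls) ls) (zetaL (firstAct (nfull P.1 ls) ls) f) w =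
        zetaL ls f w := by
      rw [e, ← zl_eq_zetaL, ← zl_eq_zetaL, zl_split]
    have e1 : sws false P ls = (P.2.map (sw P.1 (firstAct (nfull P.1 ls) ls))) ++
        [sw1 (restAct (nfull P.1 ls) ls)] := by simp [sws]
    rw [e1, List.foldl_append, List.foldl_cons, List.foldl_nil, fnS_sw1, ← hsplit]
    refine zetaL_congr _ _ _ (fun w hw => ?_) w (by simpa using hw)
    rw [length_restAct] at hw
    exact foldl_sw h ho f w (by simpa using hw)
  cases tr with
  | false => exact main f w hw
  | true =>
    have e : sws true P ls = (sws false P ls).map rv := by simp [sws]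
    rw [e, zetaS, if_pos rfl, foldl_rv _ (sws_ok h ls) (g := fun w => f (cpl w))
      (fun w _ => by rw [cpl_cpl]) w hw]
    exact main _ _ (by simpa using hw)

end sem

end Vale.Agent.P338.R3.H651
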